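import Vale.Agent.P165.Base

/-!
P165 (Benjamini, Schramm): `p_c < p_u` for all transitive graphs whose spectral radius is at most
`ρ < 1` and whose degree is at least `D(ρ)`.
-/

set_option autoImplicit false

namespace Vale.Agent.Results.P165.LargeDegree

open Vale.Agent.P165

/-- (1) For every `ρ < 1` there is `D` such that every infinite, connected, locally finite,
transitive graph with spectral radius at most `ρ` and degree at least `D` has `p_c < p_u`.
(2) For every `κ > 0` there is `D` such that every infinite, connected, locally finite,
transitive graph of degree `d ≥ D` with `h_V ≥ κ d` has `p_c < p_u`. -/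
theorem result :
    (∀ ρ : ℝ, ρ < 1 → ∃ D : ℕ, ∀ (V : Type) (G : SimpleGraph V) [G.LocallyFinite],
      Infinite V → G.Connected → Transitive G → ∀ o : V, specRad G o ≤ ρ → D ≤ G.degree o →
      pc G < pu G) ∧
    (∀ κ : ℝ, 0 < κ → ∃ D : ℕ, ∀ (V : Type) (G : SimpleGraph V) [G.LocallyFinite],
      Infinite V → G.Connected → Transitive G → ∀ o : V, κ * G.degree o ≤ hV G →
      D ≤ G.degree o → pc G < pu G) :=
  ⟨finalAll, final2All⟩

end Vale.Agent.Results.P165.LargeDegree
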