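import Vale.Agent.P165.Iso

/-!
P165 (Benjamini, Schramm): `p_c < p_u` for all transitive graphs of degree `d` whose spectral
radius `ρ` satisfies `d (1 - ρ)^3 ≥ 22`, in particular whenever `h_V^6 ≥ 176 d^5`, and for all
large Cartesian powers and all large blow-ups of every nonamenable transitive graph.
-/

set_option autoImplicit false

namespace Vale.Agent.Results.P165.SpectralGap

open Vale.Agent.P165

/-- Let `G` be infinite, connected, locally finite and transitive of degree `d`, with return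
probabilities `p_n` and spectral radius `ρ`.
(1) If `1 < c < 1 / ρ` and `1 + 2 ∑_{n ≥ 2} n c^n p_n < c`, then `p_c ≤ c / d < p_u`.
(2) If `ρ < 1` and `d (1 - ρ)^3 ≥ 22`, then `p_c < p_u`.
(3) If `h_V ^ 6 ≥ 176 d ^ 5`, then `p_c < p_u`.
(4) If `h_V > 0`, then all large Cartesian powers of `G` have `p_c < p_u`.
(5) If `h_V > 0`, then all large blow-ups of `G` have `p_c < p_u`. -/
theorem result :
    (∀ (V : Type) (G : SimpleGraph V) [G.LocallyFinite], Infinite V → G.Connected →
      Transitive G → ∀ (o : V) (c : ℝ), 1 < c → c * specRad G o < 1 →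
      1 + 2 * ∑' n : ℕ, ((n : ℝ) + 2) * c ^ (n + 2) * ptr G (n + 2) o o < c →
      pc G ≤ c / G.degree o ∧ c / G.degree o < pu G) ∧
    (∀ (V : Type) (G : SimpleGraph V) [G.LocallyFinite], Infinite V → G.Connected →
      Transitive G → ∀ o : V, specRad G o < 1 →
      22 ≤ (G.degree o : ℝ) * (1 - specRad G o) ^ 3 → pc G < pu G) ∧
    (∀ (V : Type) (G : SimpleGraph V) [G.LocallyFinite], Infinite V → G.Connected →
      Transitive G → ∀ o : V, 176 * (G.degree o : ℝ) ^ 5 ≤ hV G ^ 6 → pc G < pu G) ∧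
    (∀ (V : Type) (G : SimpleGraph V) [G.LocallyFinite], Infinite V → G.Connected →
      Transitive G → 0 < hV G →
      (∃ K : ℕ, ∀ k : ℕ, K ≤ k → pc (cpow G k) < pu (cpow G k)) ∧
      (∃ M : ℕ, ∀ m : ℕ, M ≤ m → pc (blow G m) < pu (blow G m))) :=
  ⟨fun V G _ h1 h2 h3 o c h4 h5 h6 => crit V G h1 h2 h3 o c h4 h5 h6,
    fun V G _ h1 h2 h3 o h4 h5 => expl V G h1 h2 h3 o h4 h5,
    fun V G _ h1 h2 h3 o h4 => iso' V G h1 h2 h3 o h4,
    fun V G _ h1 h2 h3 h4 => ⟨powAll V G h1 h2 h3 h4, blowAll V G h1 h2 h3 h4⟩⟩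

end Vale.Agent.Results.P165.SpectralGap
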